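import Vale.Agent.P128.Regularity.Spec

/-!
# P128 regularity, R6: tangent directions from decaying flatness

If `K` is flat at every point and scale with error `min ε₀ (C (r/R)^β)`, then every point has a
tangent direction `T z`, with a power bound on the chord through nearby points.
-/

open MeasureTheory Set Metric Filter
open scoped ENNReal Topology Real RealInnerProductSpace

noncomputable section

namespace Vale.Agent.P128.Regularity.LineGraph

open Vale.Agent.P128.Bridge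

/-- The component of `a` normal to `b`. -/
def sn (a b : ℂ) : ℝ := ⟪a, Complex.I * b⟫

lemma inner_eq (a b : ℂ) : ⟪a, b⟫ = a.re * b.re + a.im * b.im := by
  simp [Complex.inner]
  ring

lemma sn_eq (a b : ℂ) : sn a b = a.im * b.re - a.re * b.im := by
  simp [sn]
  ring

lemma norm_sq_eq (a : ℂ) : ‖a‖ ^ 2 = a.re ^ 2 + a.im ^ 2 := by
  rw [← real_inner_self_eq_norm_sq, inner_eq]
  ring

lemma sn_self (a : ℂ) : sn a a = 0 := by
  rw [sn_eq]
  ring

lemma abs_sn_comm (a b : ℂ) : |sn a b| = |sn b a| := by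
  rw [sn_eq, sn_eq, abs_sub_comm]
  congr 1
  ring

lemma abs_sn_le (a b : ℂ) (hb : ‖b‖ = 1) : |sn a b| ≤ ‖a‖ := by
  have h := abs_real_inner_le_norm a (Complex.I * b)
  rw [norm_mul, Complex.norm_I, hb] at h
  unfold sn
  linarith

lemma abs_inner_le (a b : ℂ) (hb : ‖b‖ = 1) : |⟪a, b⟫| ≤ ‖a‖ := by
  have h := abs_real_inner_le_norm a b
  rw [hb] at h
  linarith

/-- Coordinates of `sn a c` in the frame of the unit vector `d`. -/
lemma sn_frame (a c d : ℂ) (hd : ‖d‖ = 1) :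
    sn a c = ⟪c, d⟫ * sn a d - ⟪a, d⟫ * sn c d := by
  have h := norm_sq_eq d
  rw [hd] at h
  simp only [inner_eq, sn_eq]
  linear_combination (a.im * c.re - a.re * c.im) * h

/-- Comparison of the normal components with respect to two directions. -/
lemma abs_sn_trans (a b c : ℂ) (hb : ‖b‖ = 1) (hc : ‖c‖ = 1) :
    |sn a c| ≤ ‖a‖ * |sn b c| + |sn a b| := by
  rw [sn_frame a c b hb]
  have h1 : |⟪c, b⟫| ≤ 1 := hc ▸ abs_inner_le c b hb
  have h2 : |⟪a, b⟫| ≤ ‖a‖ := abs_inner_le a b hb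
  refine (abs_sub _ _).trans ?_
  rw [abs_mul, abs_mul, abs_sn_comm c b]
  have h3 := mul_le_mul_of_nonneg_right h1 (abs_nonneg (sn a b))
  have h4 := mul_le_mul_of_nonneg_right h2 (abs_nonneg (sn b c))
  linarith

/-- Two unit directions both close to a chord `e` are close to each other. -/
lemma norm_mul_abs_sn_le (e a c : ℂ) (ha : ‖a‖ = 1) (hc : ‖c‖ = 1) :
    ‖e‖ * |sn a c| ≤ |sn e c| + |sn e a| := by
  rcases eq_or_ne e 0 with rfl | he
  · simp [sn]
  have hpos : 0 < ‖e‖ := norm_pos_iff.2 he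
  have key : ‖e‖ ^ 2 * sn a c = ⟪a, e⟫ * sn e c + sn a e * ⟪e, c⟫ := by
    simp only [norm_sq_eq, inner_eq, sn_eq]
    ring
  have h1 : |⟪a, e⟫| ≤ ‖e‖ := by
    rw [real_inner_comm]
    exact abs_inner_le e a ha
  have h2 : |⟪e, c⟫| ≤ ‖e‖ := abs_inner_le e c hc
  have h3 : ‖e‖ ^ 2 * |sn a c| ≤ ‖e‖ * (|sn e c| + |sn e a|) := by
    calc ‖e‖ ^ 2 * |sn a c| = |⟪a, e⟫ * sn e c + sn a e * ⟪e, c⟫| := by
          rw [← key, abs_mul, abs_of_nonneg (by positivity : (0 : ℝ) ≤ ‖e‖ ^ 2)]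
      _ ≤ |⟪a, e⟫| * |sn e c| + |sn a e| * |⟪e, c⟫| := by
          refine (abs_add_le _ _).trans ?_
          rw [abs_mul, abs_mul]
      _ ≤ ‖e‖ * |sn e c| + |sn e a| * ‖e‖ := by
          rw [abs_sn_comm a e]
          gcongr
      _ = _ := by ring
  nlinarith [h3, hpos]

lemma norm_le_coord (a d : ℂ) (hd : ‖d‖ = 1) : ‖a‖ ≤ |⟪a, d⟫| + |sn a d| := by
  have h := norm_sq_eq d
  rw [hd] at h
  have key : ‖a‖ ^ 2 = ⟪a, d⟫ ^ 2 + sn a d ^ 2 := by
    simp only [norm_sq_eq, inner_eq, sn_eq]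
    linear_combination (a.re ^ 2 + a.im ^ 2) * h
  nlinarith [norm_nonneg a, abs_nonneg ⟪a, d⟫, abs_nonneg (sn a d), sq_abs ⟪a, d⟫,
    sq_abs (sn a d), key]

/-- The two-armed star is the line. -/
lemma mem_star_two (z d w : ℂ) : w ∈ starSet 2 z d ↔ ∃ t : ℝ, w = z + t • d := by
  have e0 : Complex.exp (((2 * π * ((0 : ℕ) : ℝ) / (2 : ℕ) : ℝ) : ℂ) * Complex.I) = 1 := by simp
  have e1 : Complex.exp (((2 * π * ((1 : ℕ) : ℝ) / (2 : ℕ) : ℝ) : ℂ) * Complex.I) = -1 := by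
    have : (2 * π * ((1 : ℕ) : ℝ) / (2 : ℕ) : ℝ) = π := by push_cast; ring
    rw [this, Complex.exp_pi_mul_I]
  simp only [starSet, mem_iUnion, mem_image, mem_Ici, Fin.exists_fin_two, Fin.val_zero,
    Fin.val_one, e0, e1, mul_one, mul_neg, smul_neg]
  constructor
  · rintro (⟨t, -, rfl⟩ | ⟨t, -, rfl⟩)
    · exact ⟨t, rfl⟩
    · exact ⟨-t, by rw [neg_smul]⟩
  · rintro ⟨t, rfl⟩
    rcases le_total 0 t with h | h
    · exact Or.inl ⟨t, h, rfl⟩
    · exact Or.inr ⟨-t, by linarith, by rw [neg_smul, neg_neg]⟩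

lemma near_sn {K : Set ℂ} {z d p : ℂ} {r ε : ℝ} (hd : ‖d‖ = 1)
    (h : Near K (starSet 2 z d) z r ε) (hp : p ∈ K) (hr : ‖p - z‖ ≤ r) :
    |sn (p - z) d| ≤ ε * r := by
  obtain ⟨w, hw, hwd⟩ := h.1 p ⟨hp, by rwa [mem_closedBall, dist_eq_norm]⟩
  obtain ⟨t, rfl⟩ := (mem_star_two z d w).1 hw
  have e : sn (p - z) d = sn (p - (z + t • d)) d := by
    simp only [sn_eq, Complex.sub_re, Complex.sub_im, Complex.add_re, Complex.add_im,
      Complex.smul_re, Complex.smul_im, smul_eq_mul]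
    ring
  rw [e]
  exact (abs_sn_le _ _ hd).trans (by rwa [← dist_eq_norm])

lemma near_pt {K : Set ℂ} {z d : ℂ} {r ε t : ℝ} (hd : ‖d‖ = 1)
    (h : Near K (starSet 2 z d) z r ε) (ht : |t| ≤ r) :
    ∃ p ∈ K, ‖p - (z + t • d)‖ ≤ ε * r := by
  obtain ⟨p, hp, hpd⟩ := h.2 (z + t • d) ⟨(mem_star_two z d _).2 ⟨t, rfl⟩, by
    rw [mem_closedBall, dist_eq_norm, add_sub_cancel_left, norm_smul, hd, mul_one]
    exact ht⟩
  exact ⟨p, hp, by rwa [← dist_eq_norm]⟩

/-- The directions at two comparable scales at the same point are close. -/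
lemma tilt {K : Set ℂ} {z d d' : ℂ} {r r' ε ε' : ℝ} (hd : ‖d‖ = 1) (hd' : ‖d'‖ = 1)
    (h : Near K (starSet 2 z d) z r ε) (h' : Near K (starSet 2 z d') z r' ε') (hr' : 0 ≤ r')
    (hrr : r' + ε' * r' ≤ r) : r' * |sn d' d| ≤ ε * r + ε' * r' := by
  obtain ⟨p, hp, hpd⟩ := near_pt hd' h' (t := r') (abs_of_nonneg hr').le
  have hn : ‖p - z‖ ≤ r := by
    calc ‖p - z‖ = ‖(p - (z + r' • d')) + r' • d'‖ := by ring_nf
      _ ≤ ‖p - (z + r' • d')‖ + ‖r' • d'‖ := norm_add_le _ _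
      _ ≤ ε' * r' + r' := by
          rw [norm_smul, hd', mul_one, Real.norm_eq_abs, abs_of_nonneg hr']
          linarith
      _ ≤ r := by linarith
  have e : r' * sn d' d = sn (p - z) d - sn (p - (z + r' • d')) d := by
    simp only [sn_eq, Complex.sub_re, Complex.sub_im, Complex.add_re, Complex.add_im,
      Complex.smul_re, Complex.smul_im, smul_eq_mul]
    ring
  calc r' * |sn d' d| = |r' * sn d' d| := by rw [abs_mul, abs_of_nonneg hr']
    _ ≤ |sn (p - z) d| + |sn (p - (z + r' • d')) d| := by rw [e]; exact abs_sub _ _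
    _ ≤ ε * r + ε' * r' := add_le_add (near_sn hd h hp hn) ((abs_sn_le _ _ hd).trans hpd)

/-- Tangent directions, chords and directions at small scales. -/
theorem exists_tangent (C β : ℝ) (hC : 0 < C) (hβ : 0 < β) (hβ1 : β ≤ 1) :
    ∃ ε₀ M : ℝ, 0 < ε₀ ∧ 0 < M ∧ ∀ (K : Set ℂ) (x : ℂ) (R : ℝ), 0 < R →
      (∀ z ∈ K ∩ closedBall x R, ∀ r ∈ Ioc (0 : ℝ) R,
        Flat K 2 z r ε₀ ∧ Flat K 2 z r (C * (r / R) ^ β)) →
      ∃ T : ℂ → ℂ, ∀ z ∈ K ∩ closedBall x R, ‖T z‖ = 1 ∧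
        (∀ p ∈ K, ‖p - z‖ ≤ R → |sn (p - z) (T z)| ≤ (1 / 400) * ‖p - z‖ ∧
          |sn (p - z) (T z)| ≤ M * (‖p - z‖ / R) ^ β * ‖p - z‖) ∧
        ∀ h ∈ Ioc (0 : ℝ) R, ∃ (r : ℝ) (d : ℂ), 0 < r ∧ r ≤ h ∧ ‖d‖ = 1 ∧
          Near K (starSet 2 z d) z r (1 / 400) ∧ |sn d (T z)| ≤ 1 / 400 := by
  set q : ℝ := (1 / 2 : ℝ) ^ β with hq
  have hq0 : 0 < q := Real.rpow_pos_of_pos (by norm_num) β
  have hq1 : q < 1 := Real.rpow_lt_one (by norm_num) (by norm_num) hβ
  have hq1' : 0 < 1 - q := by linarith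
  obtain ⟨N, hN⟩ := exists_pow_lt_of_lt_one (show 0 < (1 - q) / (10000 * C) by positivity) hq1
  have hN' : C * (q ^ N / (1 - q)) ≤ 1 / 10000 := by
    rw [lt_div_iff₀ (by positivity)] at hN
    rw [← mul_div_assoc, div_le_iff₀ hq1']
    linarith
  set ε₀ : ℝ := 1 / (10000 * (N + 1)) with hε₀
  have hε0 : 0 < ε₀ := by positivity
  have hε1 : ε₀ ≤ 1 / 10000 := by
    rw [hε₀]
    gcongr
    have : (0 : ℝ) ≤ N := Nat.cast_nonneg N
    linarith
  have hεN : (N : ℝ) * ε₀ ≤ 1 / 10000 := by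
    rw [hε₀, mul_one_div, div_le_div_iff₀ (by positivity) (by norm_num)]
    linarith
  refine ⟨ε₀, 2 * C * (3 / (1 - q) + 2), hε0, by positivity, fun K x R hR hflat => ?_⟩
  set e : ℕ → ℝ := fun j => min ε₀ (C * q ^ j) with he
  have he0 : ∀ j, 0 ≤ e j := fun j => le_min hε0.le (by positivity)
  have hea : ∀ j, e (j + 1) ≤ e j := fun j => min_le_min le_rfl
    (mul_le_mul_of_nonneg_left (pow_le_pow_of_le_one hq0.le hq1.le (Nat.le_succ j)) hC.le)
  have hsum : ∀ k n : ℕ, ∑ j ∈ Finset.Ico k n, e j ≤ C * (q ^ k / (1 - q)) := fun k n => by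
    calc ∑ j ∈ Finset.Ico k n, e j ≤ ∑ j ∈ Finset.Ico k n, C * q ^ j :=
          Finset.sum_le_sum fun j _ => min_le_right _ _
      _ = C * ∑ j ∈ Finset.Ico k n, q ^ j := by rw [Finset.mul_sum]
      _ ≤ _ := mul_le_mul_of_nonneg_left (geom_sum_Ico_le_of_lt_one hq0.le hq1) hC.le
  have hsum' : ∀ k n : ℕ, ∑ j ∈ Finset.Ico k n, e j ≤ 2 / 10000 := fun k n => by
    calc ∑ j ∈ Finset.Ico k n, e j ≤ ∑ j ∈ Finset.range N ∪ Finset.Ico N n, e j := by
          refine Finset.sum_le_sum_of_subset_of_nonneg (fun j hj => ?_) fun j _ _ => he0 j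
          simp only [Finset.mem_union, Finset.mem_range, Finset.mem_Ico] at hj ⊢
          omega
      _ = ∑ j ∈ Finset.range N, e j + ∑ j ∈ Finset.Ico N n, e j := by
          rw [Finset.sum_union]
          refine Finset.disjoint_left.2 fun j h1 h2 => ?_
          simp only [Finset.mem_range, Finset.mem_Ico] at h1 h2
          omega
      _ ≤ N * ε₀ + C * (q ^ N / (1 - q)) := by
          refine add_le_add ?_ (hsum N n)
          calc ∑ j ∈ Finset.range N, e j ≤ ∑ _j ∈ Finset.range N, ε₀ :=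
                Finset.sum_le_sum fun j _ => min_le_left _ _
            _ = _ := by simp
      _ ≤ _ := by linarith
  -- one direction for each dyadic scale
  have hdir : ∀ z ∈ K ∩ closedBall x R, ∀ j : ℕ,
      ∃ d : ℂ, ‖d‖ = 1 ∧ Near K (starSet 2 z d) z (R * (1 / 2) ^ j) (e j) := fun z hz j => by
    have hp : ((1 : ℝ) / 2) ^ j ≤ 1 := pow_le_one₀ (by norm_num) (by norm_num)
    obtain ⟨h1, h2⟩ := hflat z hz (R * (1 / 2) ^ j)
      ⟨by positivity, mul_le_of_le_one_right hR.le hp⟩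
    have hr : C * (R * (1 / 2) ^ j / R) ^ β = C * q ^ j := by
      rw [mul_div_cancel_left₀ _ hR.ne', hq, Real.rpow_pow_comm (by norm_num) β j]
    rw [hr] at h2
    simp only [he]
    rcases le_total ε₀ (C * q ^ j) with h | h
    · rw [min_eq_left h]; exact h1
    · rw [min_eq_right h]; exact h2
  choose! D hD hDn using hdir
  have hstep : ∀ z ∈ K ∩ closedBall x R, ∀ k n : ℕ, k ≤ n →
      |sn (D z n) (D z k)| ≤ 3 * ∑ j ∈ Finset.Ico k n, e j := fun z hz k n hkn => by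
    induction n, hkn using Nat.le_induction with
    | base => simp [sn_self]
    | succ n hkn ih =>
      have hs : (0 : ℝ) < R * (1 / 2) ^ (n + 1) := by positivity
      have hr : R * (1 / 2 : ℝ) ^ n = 2 * (R * (1 / 2) ^ (n + 1)) := by rw [pow_succ]; ring
      have hsmall : e (n + 1) ≤ 1 := (min_le_left _ _).trans (by linarith)
      have ht := tilt (hD z hz n) (hD z hz (n + 1)) (hDn z hz n) (hDn z hz (n + 1)) hs.le (by
        rw [hr]; nlinarith [hs, hsmall])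
      rw [hr] at ht
      have ht' : |sn (D z (n + 1)) (D z n)| ≤ 2 * e n + e (n + 1) :=
        le_of_mul_le_mul_left (by linarith [ht]) hs
      have := abs_sn_trans (D z (n + 1)) (D z n) (D z k) (hD z hz n) (hD z hz k)
      rw [hD z hz (n + 1)] at this
      rw [Finset.sum_Ico_succ_top hkn]
      linarith [hea n, he0 n]
  -- the limit direction
  have hlim : ∀ z ∈ K ∩ closedBall x R, ∃ T : ℂ, ‖T‖ = 1 ∧ ∀ k : ℕ,
      |sn (D z k) T| ≤ 3 * (2 / 10000) ∧ |sn (D z k) T| ≤ 3 * (C * (q ^ k / (1 - q))) :=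
    fun z hz => by
    obtain ⟨T, hT, φ, hφ, hTt⟩ := (isCompact_sphere (0 : ℂ) 1).tendsto_subseq
      (x := D z) fun j => by simp [hD z hz j]
    refine ⟨T, by simpa using hT, fun k => ?_⟩
    have hc : Tendsto (fun m => |sn (D z k) (D z (φ m))|) atTop (𝓝 |sn (D z k) T|) := by
      have : Continuous fun w : ℂ => |sn (D z k) w| := by unfold sn; fun_prop
      exact (this.tendsto T).comp hTt
    have hev : ∀ᶠ m in atTop, k ≤ φ m := hφ.tendsto_atTop.eventually (eventually_ge_atTop k)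
    constructor <;> refine le_of_tendsto hc (hev.mono fun m hm => ?_) <;>
      rw [abs_sn_comm] <;> refine (hstep z hz k (φ m) hm).trans ?_
    · linarith [hsum' k (φ m)]
    · linarith [hsum k (φ m)]
  choose! T hT hTD using hlim
  refine ⟨T, fun z hz => ⟨hT z hz, fun p hp hpR => ?_, fun h hh => ?_⟩⟩
  · rcases (norm_nonneg (p - z)).eq_or_lt with hs | hs
    · rw [← hs, norm_eq_zero.1 hs.symm]
      simp [sn]
    obtain ⟨k, hk1, hk2⟩ := exists_nat_pow_near_of_lt_one (show 0 < ‖p - z‖ / R by positivity)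
      ((div_le_one hR).2 hpR) (by norm_num : (0 : ℝ) < 1 / 2) (by norm_num)
    set s := ‖p - z‖
    rw [div_le_iff₀ hR] at hk2
    rw [lt_div_iff₀ hR, pow_succ] at hk1
    have h1 := near_sn (hD z hz k) (hDn z hz k) hp (by linarith)
    have h2 : e k * (R * (1 / 2) ^ k) ≤ e k * (2 * s) :=
      mul_le_mul_of_nonneg_left (by linarith) (he0 k)
    have h3 := abs_sn_trans (p - z) (D z k) (T z) (hD z hz k) (hT z hz)
    have key : |sn (p - z) (T z)| ≤ (|sn (D z k) (T z)| + 2 * e k) * s := by linarith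
    refine ⟨key.trans (mul_le_mul_of_nonneg_right ?_ hs.le),
      key.trans (mul_le_mul_of_nonneg_right ?_ hs.le)⟩
    · linarith [(hTD z hz k).1, (min_le_left _ _ : e k ≤ ε₀)]
    have hqk : q ^ k ≤ 2 * (s / R) ^ β := by
      have h2R : (1 / 2 : ℝ) ^ k ≤ 2 * (s / R) := by
        rw [← mul_div_assoc, le_div_iff₀ hR]
        linarith
      calc q ^ k = ((1 / 2 : ℝ) ^ k) ^ β := by rw [hq, Real.rpow_pow_comm (by norm_num)]
        _ ≤ (2 * (s / R)) ^ β := Real.rpow_le_rpow (by positivity) h2R hβ.le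
        _ = 2 ^ β * (s / R) ^ β := Real.mul_rpow (by norm_num) (by positivity)
        _ ≤ 2 * (s / R) ^ β := by
          refine mul_le_mul_of_nonneg_right ?_ (by positivity)
          exact (Real.rpow_le_rpow_of_exponent_le (by norm_num) hβ1).trans_eq (Real.rpow_one 2)
    calc |sn (D z k) (T z)| + 2 * e k ≤ 3 * (C * (q ^ k / (1 - q))) + 2 * (C * q ^ k) :=
          add_le_add (hTD z hz k).2 (by linarith [(min_le_right _ _ : e k ≤ C * q ^ k)])
      _ = C * (3 / (1 - q) + 2) * q ^ k := by ring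
      _ ≤ C * (3 / (1 - q) + 2) * (2 * (s / R) ^ β) :=
          mul_le_mul_of_nonneg_left hqk (by positivity)
      _ = _ := by ring
  · obtain ⟨k', hk'⟩ := exists_pow_lt_of_lt_one (show 0 < h / R from div_pos hh.1 hR)
      (by norm_num : (1 / 2 : ℝ) < 1)
    rw [lt_div_iff₀ hR] at hk'
    refine ⟨R * (1 / 2) ^ k', D z k', by positivity, by linarith, hD z hz k', ?_, ?_⟩
    · refine ⟨fun w hw => ?_, fun w hw => ?_⟩
      · obtain ⟨v, hv, hvd⟩ := (hDn z hz k').1 w hw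
        refine ⟨v, hv, hvd.trans ?_⟩
        gcongr
        linarith [(min_le_left _ _ : e k' ≤ ε₀)]
      · obtain ⟨v, hv, hvd⟩ := (hDn z hz k').2 w hw
        refine ⟨v, hv, hvd.trans ?_⟩
        gcongr
        linarith [(min_le_left _ _ : e k' ≤ ε₀)]
    · linarith [(hTD z hz k').1]

end Vale.Agent.P128.Regularity.LineGraph
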